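import Vale.Agent.P038.H275.Star
import Vale.Agent.P038.H71.Plan

/-!
# Seymour's second neighbourhood conjecture
-/

namespace Vale.Agent.P038.H275

open Finset Vale.Agent.P038.H139

universe u

variable {V : Type u} [Fintype V] [DecidableEq V] {D : OGraph V} {w : V → ℝ}

/-- `c(S) = w(N[S]) - w(S)` -/
noncomputable def cc (D : OGraph V) (w : V → ℝ) (S : Finset V) : ℝ := W w (cl D S) - W w S

theorem subset_cl (S : Finset V) : S ⊆ cl D S := fun v hv => mem_cl.2 (Or.inl hv)

/-- (G) -/
theorem cc_lt (h : NFmin 1 D w) {X : Finset V} (hX : cl D X ≠ X) :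
    cc D w (cl D X) < cc D w X := by
  have hw : ∀ v, 0 ≤ w v := h.toNF.nonneg
  have hL : (∅ : Finset V) ⊂ H71.Lx D X := by
    rw [Finset.empty_ssubset]
    by_contra hne
    rw [not_nonempty_iff_eq_empty] at hne
    refine hX (Subset.antisymm ?_ (subset_cl X))
    intro v hv
    by_contra hvX
    rw [mem_cl] at hv
    rcases hv with hv | hv
    · exact hvX hv
    · have : v ∈ H71.Lx D X := mem_sdiff.2 ⟨mem_outS.2 hv, hvX⟩
      rw [hne] at this
      exact absurd this (notMem_empty v)
  have h1 := H71.plan_lt h X ∅ hL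
  have e0 : H71.dd 1 D w X ∅ = 0 := by
    unfold H71.dd
    have : cl D (∅ : Finset V) \ X = ∅ := by
      ext v; simp [mem_cl]
    rw [this]
    simp [W]
  rw [e0] at h1
  unfold H71.dd at h1
  have e1 : W w (H71.Lx D X) = W w (cl D X) - W w X := by
    rw [← W_sdiff (subset_cl X)]
    congr 1
    ext v
    simp only [H71.Lx, mem_sdiff, mem_outS, mem_cl]
    tauto
  have e2 : W w (cl D (H71.Lx D X) \ X) = W w (cl D (cl D X)) - W w X := by
    rw [← W_sdiff ((subset_cl X).trans (subset_cl _))]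
    congr 1
    ext v
    simp only [H71.Lx, mem_sdiff, mem_outS, mem_cl]
    constructor
    · rintro ⟨h2 | ⟨y, ⟨h3, h4⟩, h5⟩, h6⟩
      · exact ⟨Or.inl (Or.inr h2.1), h6⟩
      · exact ⟨Or.inr ⟨y, Or.inr h3, h5⟩, h6⟩
    · rintro ⟨(h2 | h2) | ⟨y, h3 | h3, h5⟩, h6⟩
      · exact absurd h2 h6
      · exact ⟨Or.inl ⟨h2, h6⟩, h6⟩
      · exact ⟨Or.inl ⟨⟨y, h3, h5⟩, h6⟩, h6⟩
      · by_cases hy : y ∈ X
        · exact ⟨Or.inl ⟨⟨y, hy, h5⟩, h6⟩, h6⟩
        · exact ⟨Or.inr ⟨y, ⟨h3, hy⟩, h5⟩, h6⟩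
  rw [e1, e2] at h1
  unfold cc
  linarith

/-- feasible pairs -/
structure Fea (D : OGraph V) (B C : V → Finset V) : Prop where
  hB : ∀ a, cl D {a} ⊆ B a
  hC : ∀ a, cl D {a} ⊆ C a
  no : ∀ a b, a ≠ b → b ∈ B a → a ∉ C b

/-- the cost -/
noncomputable def cost (D : OGraph V) (w : V → ℝ) (B C : V → Finset V) : ℝ :=
  ∑ a, w a * (cc D w (B a) + cc D w (C a))

theorem Fea.symm {B C : V → Finset V} (h : Fea D B C) : Fea D C B :=
  ⟨h.hC, h.hB, fun a b hab hb ha => h.no b a hab.symm ha hb⟩

theorem cost_symm (B C : V → Finset V) : cost D w B C = cost D w C B := by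
  unfold cost
  exact sum_congr rfl fun a _ => by ring

theorem fea_cl : Fea D (fun a => cl D {a}) (fun a => cl D {a}) := by
  refine ⟨fun a => Subset.refl _, fun a => Subset.refl _, fun a b hab hb ha => ?_⟩
  simp only [mem_cl, mem_singleton, exists_eq_left] at hb ha
  rcases hb with hb | hb
  · exact hab hb.symm
  · rcases ha with ha | ha
    · exact hab ha
    · exact D.asymm a b hb ha

theorem exists_min (D : OGraph V) (w : V → ℝ) : ∃ B C : V → Finset V, Fea D B C ∧
    ∀ B' C', Fea D B' C' → cost D w B C ≤ cost D w B' C' := by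
  obtain ⟨p, hp, hmin⟩ := Set.exists_min_image {p : (V → Finset V) × (V → Finset V) | Fea D p.1 p.2}
    (fun p => cost D w p.1 p.2) (Set.toFinite _) ⟨(_, _), fea_cl⟩
  exact ⟨p.1, p.2, hp, fun B' C' h => hmin (B', C') h⟩

theorem cl_union (S T : Finset V) : cl D (S ∪ T) = cl D S ∪ cl D T := by
  ext v
  simp only [mem_cl, mem_union]
  constructor
  · rintro ((h | h) | ⟨y, h | h, h'⟩)
    · exact Or.inl (Or.inl h)
    · exact Or.inr (Or.inl h)
    · exact Or.inl (Or.inr ⟨y, h, h'⟩)
    · exact Or.inr (Or.inr ⟨y, h, h'⟩)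
  · rintro ((h | ⟨y, h, h'⟩) | (h | ⟨y, h, h'⟩))
    · exact Or.inl (Or.inl h)
    · exact Or.inr ⟨y, Or.inl h, h'⟩
    · exact Or.inl (Or.inr h)
    · exact Or.inr ⟨y, Or.inr h, h'⟩

theorem hall_of {S T : Finset V} (hd : Disjoint S T) (h : cc D w S ≤ cc D w (S ∪ T)) :
    W w T ≤ W w (cl D T \ cl D S) := by
  unfold cc at h
  rw [cl_union, W_union hd] at h
  have e : cl D S ∪ cl D T = cl D S ∪ (cl D T \ cl D S) := by
    rw [union_sdiff_self_eq_union]
  rw [e, W_union disjoint_sdiff] at h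
  linarith

theorem hall_B (hw : ∀ v, 0 < w v) {B C : V → Finset V} (hf : Fea D B C)
    (hmin : ∀ B' C', Fea D B' C' → cost D w B C ≤ cost D w B' C') (z : V) (T : Finset V)
    (hT : ∀ b ∈ T, b ∉ B z ∧ z ∉ C b) : W w T ≤ W w (cl D T \ cl D (B z)) := by
  refine hall_of (disjoint_left.2 fun v hv hv' => (hT v hv').1 hv) ?_
  have h1 := hmin (Function.update B z (B z ∪ T)) C ⟨fun a => by
      by_cases ha : a = z
      · subst ha
        rw [Function.update_self]
        exact (hf.hB a).trans subset_union_left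
      · rw [Function.update_of_ne ha]
        exact hf.hB a, hf.hC, fun a b hab hb => by
      by_cases ha : a = z
      · subst ha
        rw [Function.update_self] at hb
        rcases mem_union.1 hb with h | h
        · exact hf.no a b hab h
        · exact (hT b h).2
      · rw [Function.update_of_ne ha] at hb
        exact hf.no a b hab hb⟩
  unfold cost at h1
  rw [← Finset.add_sum_erase univ _ (mem_univ z), ← Finset.add_sum_erase univ _ (mem_univ z)] at h1
  have e : ∑ a ∈ univ.erase z, w a * (cc D w (Function.update B z (B z ∪ T) a) + cc D w (C a)) =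
      ∑ a ∈ univ.erase z, w a * (cc D w (B a) + cc D w (C a)) :=
    sum_congr rfl fun a ha => by rw [Function.update_of_ne (ne_of_mem_erase ha)]
  rw [e, Function.update_self] at h1
  have h2 : w z * (cc D w (B z) + cc D w (C z)) ≤ w z * (cc D w (B z ∪ T) + cc D w (C z)) := by
    linarith
  have h3 := le_of_mul_le_mul_left h2 (hw z)
  linarith

theorem sum_swap (E : V → V → Prop) [∀ a b, Decidable (E a b)] :
    ∑ b, w b * W w (univ.filter fun z => E z b) = ∑ z, w z * W w (univ.filter fun b => E z b) := by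
  unfold W
  simp only [sum_filter, mul_sum]
  rw [sum_comm]
  refine sum_congr rfl fun z _ => sum_congr rfl fun b _ => ?_
  split_ifs <;> ring

/-- the main inequality -/
theorem main_ineq (hw : ∀ v, 0 < w v) {B C : V → Finset V} (hf : Fea D B C)
    (hmin : ∀ B' C', Fea D B' C' → cost D w B C ≤ cost D w B' C') :
    cost D w (AU D B) (AU D C) ≤ cost D w B C := by
  classical
  have hw' : ∀ v, 0 ≤ w v := fun v => (hw v).le
  -- the sets `U`
  set Uo : V → Finset V := fun a => univ.filter fun b => a ∉ C b with hUo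
  have mUo : ∀ {a b : V}, b ∈ Uo a ↔ a ∉ C b := by intro a b; simp [hUo]
  set U : V → Finset V := fun a => insert a (Uo a) with hU
  have mU : ∀ {a b : V}, b ∈ U a ↔ b = a ∨ a ∉ C b := by intro a b; simp [hU, mUo]
  have selfB : ∀ a, a ∈ B a := fun a => hf.hB a (mem_cl.2 (Or.inl (mem_singleton_self a)))
  have selfC : ∀ a, a ∈ C a := fun a => hf.hC a (mem_cl.2 (Or.inl (mem_singleton_self a)))
  have arcB : ∀ {a b}, D.arc a b → b ∈ B a := fun {a b} h =>
    hf.hB a (mem_cl.2 (Or.inr ⟨a, mem_singleton_self a, h⟩))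
  have arcC : ∀ {a b}, D.arc a b → b ∈ C a := fun {a b} h =>
    hf.hC a (mem_cl.2 (Or.inr ⟨a, mem_singleton_self a, h⟩))
  have hBU : ∀ a, B a ⊆ U a := fun a b hb => by
    rw [mU]
    by_cases h : b = a
    · exact Or.inl h
    · exact Or.inr (hf.no a b (Ne.symm h) hb)
  have aUo : ∀ a, a ∉ Uo a := fun a h => (mUo.1 h) (selfC a)
  have arcUo : ∀ {a b}, D.arc a b → b ∈ Uo a := fun {a b} h => by
    rw [mUo]
    refine hf.no a b ?_ (arcB h)
    rintro rfl
    exact D.loopless _ h
  -- (R) and (C)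
  have hR : ∀ a, ∀ T ⊆ U a \ B a, W w T ≤ W w (cl D T \ cl D (B a)) := by
    intro a T hT
    refine hall_B hw hf hmin a T fun b hb => ?_
    obtain ⟨h1, h2⟩ := mem_sdiff.1 (hT hb)
    refine ⟨h2, ?_⟩
    rcases mU.1 h1 with h3 | h3
    · subst h3; exact absurd (selfB b) h2
    · exact h3
  have hC : ∀ x, ∀ T : Finset V, (∀ z ∈ T, x ∈ U z \ B z) →
      W w T ≤ W w ((cl D T).filter fun z => x ∈ AU D U z) := by
    intro x T hT
    have h1 := hall_B hw hf.symm (fun B' C' h => by
      rw [cost_symm C B, cost_symm B' C']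
      exact hmin C' B' h.symm) x T (fun z hz => by
        obtain ⟨h1, h2⟩ := mem_sdiff.1 (hT z hz)
        refine ⟨?_, h2⟩
        rcases mU.1 h1 with h3 | h3
        · subst h3; exact absurd (selfB x) h2
        · exact h3)
    refine h1.trans (W_mono hw' ?_)
    intro z hz
    obtain ⟨h2, h3⟩ := mem_sdiff.1 hz
    refine mem_filter.2 ⟨h2, mem_AU.2 fun z' hz' => mU.2 (Or.inr fun h4 => h3 ?_)⟩
    rw [mem_cl]
    rcases hz' with rfl | hz'
    · exact Or.inl h4
    · exact Or.inr ⟨z', h4, hz'⟩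
  have hstar := star hw' B U hR hC
  -- the columns
  have c1 : ∑ b, w b * cc D w (C b) = ∑ z, w z * (W w (Uo z) - W w (AU D Uo z)) := by
    have h1 : ∀ b, cc D w (C b) = W w (univ.filter fun z => b ∈ Uo z \ AU D Uo z) := by
      intro b
      unfold cc
      rw [← W_sdiff (subset_cl (C b))]
      congr 1
      ext z
      simp only [mem_sdiff, mem_cl, mem_filter, mem_univ, true_and, mUo, mem_AU, not_forall,
        exists_prop, not_not]
      constructor
      · rintro ⟨h2 | ⟨y, h2, h3⟩, h4⟩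
        · exact absurd h2 h4
        · exact ⟨h4, y, Or.inr h3, h2⟩
      · rintro ⟨h4, y, rfl | h3, h2⟩
        · exact absurd h2 h4
        · exact ⟨Or.inr ⟨y, h2, h3⟩, h4⟩
    simp only [h1]
    rw [sum_swap (w := w) fun z b => b ∈ Uo z \ AU D Uo z]
    refine sum_congr rfl fun z _ => ?_
    rw [← W_sdiff (S := Uo z) (T := AU D Uo z) fun x hx => mem_AU.1 hx z (Or.inl rfl)]
    congr 2
    ext b
    simp
  have c2 : ∑ b, w b * cc D w (AU D C b) =
      ∑ z, w z * (W w (cl D (Uo z)) - W w (AU D (fun s => cl D (Uo s)) z)) := by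
    have m : ∀ {z b : V}, z ∈ AU D C b ↔ b ∉ cl D (Uo z) := by
      intro z b
      rw [mem_AU, mem_cl]
      constructor
      · rintro h1 (h2 | ⟨y, h2, h3⟩)
        · exact mUo.1 h2 (h1 b (Or.inl rfl))
        · exact mUo.1 h2 (h1 y (Or.inr h3))
      · intro h1 s hs
        by_contra h2
        refine h1 ?_
        rcases hs with rfl | hs
        · exact Or.inl (mUo.2 h2)
        · exact Or.inr ⟨s, mUo.2 h2, hs⟩
    have h1 : ∀ b, cc D w (AU D C b) =
        W w (univ.filter fun z => b ∈ cl D (Uo z) \ AU D (fun s => cl D (Uo s)) z) := by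
      intro b
      unfold cc
      rw [← W_sdiff (subset_cl (AU D C b))]
      congr 1
      ext z
      simp only [mem_sdiff, mem_filter, mem_univ, true_and]
      constructor
      · rintro ⟨h2, h4⟩
        have h4' : b ∈ cl D (Uo z) := by
          by_contra h; exact h4 (m.2 h)
        refine ⟨h4', fun h5 => ?_⟩
        rcases mem_cl.1 h2 with h2 | ⟨y, h2, h3⟩
        · exact h4 h2
        · exact (m.1 h2) (mem_AU.1 h5 y (Or.inr h3))
      · rintro ⟨h4, h5⟩
        rw [mem_AU] at h5
        push Not at h5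
        obtain ⟨y, hy, h6⟩ := h5
        refine ⟨mem_cl.2 ?_, fun h7 => m.1 h7 h4⟩
        rcases hy with rfl | hy
        · exact absurd h4 h6
        · exact Or.inr ⟨y, m.2 h6, hy⟩
    simp only [h1]
    rw [sum_swap (w := w) fun z b => b ∈ cl D (Uo z) \ AU D (fun s => cl D (Uo s)) z]
    refine sum_congr rfl fun z _ => ?_
    rw [← W_sdiff (S := cl D (Uo z)) (T := AU D (fun s => cl D (Uo s)) z)
      fun x hx => mem_AU.1 hx z (Or.inl rfl)]
    congr 2
    ext b
    simp
  -- the diagonal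
  have W_ins : ∀ {a : V} {S : Finset V}, a ∉ S → W w (insert a S) = w a + W w S := fun h =>
    sum_insert h
  have d1 : ∀ a, W w (U a) = w a + W w (Uo a) := fun a => W_ins (aUo a)
  have d2 : ∀ a, W w (cl D (U a)) = w a + W w (cl D (Uo a)) := by
    intro a
    rw [← W_ins]
    · congr 1
      ext v
      simp only [mem_cl, mem_insert, hU, exists_eq_or_imp]
      constructor
      · rintro ((h | h) | (h | h))
        · exact Or.inl h
        · exact Or.inr (Or.inl h)
        · exact Or.inr (Or.inl (arcUo h))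
        · exact Or.inr (Or.inr h)
      · rintro (h | (h | h))
        · exact Or.inl (Or.inl h)
        · exact Or.inl (Or.inr h)
        · exact Or.inr (Or.inr h)
    · rw [mem_cl]
      rintro (h | ⟨b, h, h'⟩)
      · exact aUo a h
      · exact mUo.1 h (arcC h')
  have k0 : ∀ {a x : V}, x ∈ AU D U a → x ≠ a → ∀ s, (a = s ∨ D.arc s a) → x ∈ Uo s := by
    intro a x hx hxa s hs
    have h1 := mem_AU.1 hx s hs
    rcases mU.1 h1 with h2 | h2
    · subst h2
      rcases hs with h3 | h3
      · exact absurd h3.symm hxa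
      · rcases mU.1 (mem_AU.1 hx a (Or.inl rfl)) with h4 | h4
        · exact absurd h4 hxa
        · exact absurd (arcC h3) h4
    · exact mUo.2 h2
  have d3 : ∀ a, W w (AU D U a) = w a + W w (AU D Uo a) := by
    intro a
    rw [← W_ins (fun h => aUo a (mem_AU.1 h a (Or.inl rfl)))]
    congr 1
    ext x
    rw [mem_insert]
    constructor
    · intro hx
      by_cases hxa : x = a
      · exact Or.inl hxa
      · exact Or.inr (mem_AU.2 fun s hs => k0 hx hxa s hs)
    · rintro (rfl | hx)
      · refine mem_AU.2 fun s hs => ?_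
        rcases hs with rfl | hs
        · exact mU.2 (Or.inl rfl)
        · exact mem_insert_of_mem (arcUo hs)
      · exact mem_AU.2 fun s hs => mem_insert_of_mem (mem_AU.1 hx s hs)
  have d4 : ∀ a, W w (cl D (AU D U a)) ≤ w a + W w (AU D (fun s => cl D (Uo s)) a) := by
    intro a
    have hna : a ∉ AU D (fun s => cl D (Uo s)) a := by
      intro h
      have h1 := mem_AU.1 h a (Or.inl rfl)
      rw [mem_cl] at h1
      rcases h1 with h1 | ⟨b, h1, h2⟩
      · exact aUo a h1
      · exact mUo.1 h1 (arcC h2)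
    rw [← W_ins hna]
    refine W_mono hw' ?_
    intro v hv
    rw [mem_insert]
    by_cases hva : v = a
    · exact Or.inl hva
    right
    refine mem_AU.2 fun s hs => ?_
    rw [mem_cl] at hv
    rw [mem_cl]
    rcases hv with hv | ⟨x, hx, hxv⟩
    · exact Or.inl (k0 hv hva s hs)
    · by_cases hxa : x = a
      · subst hxa
        rcases hs with rfl | hs
        · exact Or.inl (arcUo hxv)
        · exact Or.inr ⟨x, arcUo hs, hxv⟩
      · exact Or.inr ⟨x, k0 hx hxa s hs, hxv⟩
  -- the final sum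
  have hXU : ∀ a, AU D B a ⊆ AU D U a := fun a x hx =>
    mem_AU.2 fun s hs => hBU s (mem_AU.1 hx s hs)
  have p1 : ∀ z, W w ((AU D U z).filter fun x => ∃ z', (z = z' ∨ D.arc z' z) ∧ x ∉ B z') =
      W w (AU D U z) - W w (AU D B z) := by
    intro z
    rw [← W_sdiff (hXU z)]
    congr 1
    ext x
    simp only [mem_filter, mem_sdiff, mem_AU (U := B), not_forall, exists_prop]
  have p2 : ∀ z, W w (cl D (U z) \ cl D (B z)) = W w (cl D (U z)) - W w (cl D (B z)) := fun z =>
    W_sdiff (cl_mono (hBU z))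
  have p3 : ∀ z, W w ((cl D (AU D U z)).filter fun u =>
      ∃ z', (z = z' ∨ D.arc z' z) ∧ u ∉ cl D (B z')) ≤
        W w (cl D (AU D U z)) - W w (cl D (AU D B z)) := by
    intro z
    rw [← W_sdiff (cl_mono (hXU z))]
    refine W_mono hw' ?_
    intro u hu
    obtain ⟨h1, z', hz', h2⟩ := mem_filter.1 hu
    refine mem_sdiff.2 ⟨h1, fun h3 => h2 (cl_mono (fun x hx => mem_AU.1 hx z' hz') h3)⟩
  have p4 : ∀ z, W w (U z \ B z) = W w (U z) - W w (B z) := fun z => W_sdiff (hBU z)
  have q1 : cost D w (AU D B) (AU D C) - cost D w B C =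
      ∑ z, w z * ((W w (cl D (AU D B z)) - W w (AU D B z)) +
        (W w (cl D (Uo z)) - W w (AU D (fun s => cl D (Uo s)) z)) -
        (W w (cl D (B z)) - W w (B z)) - (W w (Uo z) - W w (AU D Uo z))) := by
    unfold cost
    simp only [mul_add, mul_sub, sum_add_distrib, sum_sub_distrib] at c1 c2 ⊢
    rw [c1, c2]
    unfold cc
    simp only [mul_sub, sum_sub_distrib]
    ring
  have q2 : cost D w (AU D B) (AU D C) - cost D w B C ≤
      ∑ z, w z * ((W w (AU D U z) - W w (AU D B z)) + (W w (cl D (U z)) - W w (cl D (B z))) -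
        W w ((cl D (AU D U z)).filter fun u => ∃ z', (z = z' ∨ D.arc z' z) ∧ u ∉ cl D (B z')) -
        (W w (U z) - W w (B z))) := by
    rw [q1]
    refine sum_le_sum fun z _ => mul_le_mul_of_nonneg_left ?_ (hw' z)
    have := d1 z
    have := d2 z
    have := d3 z
    have := d4 z
    have := p3 z
    linarith
  have q3 : ∑ z, w z * ((W w (AU D U z) - W w (AU D B z)) +
      (W w (cl D (U z)) - W w (cl D (B z))) -
        W w ((cl D (AU D U z)).filter fun u => ∃ z', (z = z' ∨ D.arc z' z) ∧ u ∉ cl D (B z')) -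
        (W w (U z) - W w (B z))) ≤ 0 := by
    simp only [p1, p2, p4] at hstar
    simp only [mul_add, mul_sub, sum_add_distrib, sum_sub_distrib] at hstar ⊢
    linarith
  linarith

theorem AU_self {B : V → Finset V} (h : ∀ a, cl D {a} ⊆ B a) (a : V) : a ∈ AU D B a :=
  mem_AU.2 fun s hs => h s (by
    rw [mem_cl]
    rcases hs with rfl | hs
    · exact Or.inl (mem_singleton_self _)
    · exact Or.inr ⟨s, mem_singleton_self s, hs⟩)

theorem fea_X {B C : V → Finset V} (hf : Fea D B C) :
    Fea D (fun a => cl D (AU D B a)) (fun a => cl D (AU D C a)) := by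
  refine ⟨fun a => cl_mono (singleton_subset_iff.2 (AU_self hf.hB a)),
    fun a => cl_mono (singleton_subset_iff.2 (AU_self hf.hC a)), fun a b hab hb ha => ?_⟩
  have arcC : ∀ {a b}, (b = a ∨ D.arc a b) → b ∈ C a := fun {a b} h => hf.hC a (by
    rw [mem_cl]
    rcases h with rfl | h
    · exact Or.inl (mem_singleton_self _)
    · exact Or.inr ⟨a, mem_singleton_self a, h⟩)
  have arcB : ∀ {a b}, (b = a ∨ D.arc a b) → b ∈ B a := fun {a b} h => hf.hB a (by
    rw [mem_cl]
    rcases h with rfl | h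
    · exact Or.inl (mem_singleton_self _)
    · exact Or.inr ⟨a, mem_singleton_self a, h⟩)
  obtain ⟨x, hx, hxb⟩ : ∃ x ∈ AU D B a, b = x ∨ D.arc x b := by
    rcases mem_cl.1 hb with h | ⟨y, h, h'⟩
    · exact ⟨b, h, Or.inl rfl⟩
    · exact ⟨y, h, Or.inr h'⟩
  obtain ⟨y, hy, hya⟩ : ∃ y ∈ AU D C b, a = y ∨ D.arc y a := by
    rcases mem_cl.1 ha with h | ⟨y, h, h'⟩
    · exact ⟨a, h, Or.inl rfl⟩
    · exact ⟨y, h, Or.inr h'⟩
  have h1 : x ∈ B y := mem_AU.1 hx y hya
  have h2 : y ∈ C x := mem_AU.1 hy x hxb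
  have hxy : y = x := by
    by_contra hne
    exact hf.no y x hne h1 h2
  subst hxy
  -- `y ∈ B a`, `a ∈ C y`
  have h3 : y = a := by
    by_contra hne
    exact hf.no a y (Ne.symm hne) (mem_AU.1 hx a (Or.inl rfl)) (arcC hya)
  have h4 : y = b := by
    by_contra hne
    exact hf.no y b hne (arcB hxb) (mem_AU.1 hy b (Or.inl rfl))
  exact hab (h3.symm.trans h4)

theorem no_nfmin [Nonempty V] (h : NFmin 1 D w) : False := by
  classical
  obtain ⟨B, C, hf, hmin⟩ := exists_min D w
  have hw : ∀ v, 0 < w v := h.toNF.pos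
  have hle : ∀ S, cc D w (cl D S) ≤ cc D w S := by
    intro S
    by_cases hS : cl D S = S
    · rw [hS]
    · exact (cc_lt h hS).le
  have h1 := main_ineq hw hf hmin
  have h2 := hmin _ _ (fea_X hf)
  have h3 : ∑ a, w a * (cc D w (AU D B a) + cc D w (AU D C a)) ≤
      ∑ a, w a * (cc D w (cl D (AU D B a)) + cc D w (cl D (AU D C a))) := h1.trans h2
  have h4 : ∀ a ∈ (univ : Finset V), w a * (cc D w (cl D (AU D B a)) + cc D w (cl D (AU D C a))) ≤
      w a * (cc D w (AU D B a) + cc D w (AU D C a)) := fun a _ =>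
    mul_le_mul_of_nonneg_left (add_le_add (hle _) (hle _)) (hw a).le
  have h5 := (Finset.sum_eq_sum_iff_of_le h4).1 (le_antisymm (sum_le_sum h4) h3)
  have hcl : ∀ a, cl D (AU D B a) = AU D B a ∧ cl D (AU D C a) = AU D C a := by
    intro a
    have h6 := mul_left_cancel₀ (hw a).ne' (h5 a (mem_univ a))
    have h7 := hle (AU D B a)
    have h8 := hle (AU D C a)
    constructor
    · by_contra hne
      have := cc_lt h hne
      linarith
    · by_contra hne
      have := cc_lt h hne
      linarith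
  -- no sinks
  have hout : ∀ v, ∃ u, D.arc v u := by
    intro v
    have h6 := h.toNF.posF v
    unfold Fw at h6
    have h7 := W_nonneg h.toNF.nonneg (N2 D v)
    have h8 : (N1 D v).Nonempty := by
      by_contra hne
      rw [not_nonempty_iff_eq_empty] at hne
      rw [hne] at h6
      simp only [W, sum_empty, mul_zero, zero_sub] at h6 h7
      linarith
    obtain ⟨u, hu⟩ := h8
    exact ⟨u, mem_N1.1 hu⟩
  -- reachable sets
  set Rc : V → Finset V := fun a => univ.filter fun b => Relation.ReflTransGen D.arc a b with hRc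
  obtain ⟨a, -, ha⟩ := Finset.exists_min_image (univ : Finset V) (fun a => (Rc a).card)
    univ_nonempty
  obtain ⟨c, hac⟩ := hout a
  have hsub : Rc c ⊆ Rc a := by
    intro b hb
    simp only [hRc, mem_filter, mem_univ, true_and] at hb ⊢
    exact hb.head hac
  have heq : Rc c = Rc a := eq_of_subset_of_card_le hsub (ha c (mem_univ c))
  have hca : Relation.ReflTransGen D.arc c a := by
    have : a ∈ Rc c := by
      rw [heq]
      simp only [hRc, mem_filter, mem_univ, true_and]
      exact Relation.ReflTransGen.refl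
    simpa [hRc] using this
  have hreach : ∀ b, Relation.ReflTransGen D.arc c b → b ∈ AU D B c := by
    intro b hb
    induction hb with
    | refl => exact AU_self hf.hB c
    | tail _ h6 ih =>
      rw [← (hcl c).1]
      exact mem_cl.2 (Or.inr ⟨_, ih, h6⟩)
  have hfX := fea_X hf
  refine hfX.no c a ?_ ?_ ?_
  · rintro rfl
    exact D.loopless _ hac
  · rw [(hcl c).1]
    exact hreach a hca
  · exact mem_cl.2 (Or.inr ⟨a, AU_self hf.hC a, hac⟩)

/-- Seymour's second neighbourhood conjecture, weighted form. -/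
theorem snc {V : Type u} [Fintype V] [Nonempty V] (D : OGraph V) (w : V → ℝ)
    (hw : ∀ v, 0 ≤ w v) : ∃ v, ∑ u ∈ N1 D v, w u ≤ ∑ u ∈ N2 D v, w u := by
  classical
  obtain ⟨v, hv⟩ := snc_of_noNF (lam := 1) zero_le_one (fun V _ _ D w h => by
    classical
    obtain ⟨D', w', h'⟩ := exists_nfmin h
    exact no_nfmin h') D w hw
  exact ⟨v, by simpa using hv⟩

end Vale.Agent.P038.H275
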