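import Vale.Agent.P038.H139.Basic

/-!
# The inequality (★) of helper357's note 22687
-/

namespace Vale.Agent.P038.H275

open Finset Vale.Agent.P038.H139

variable {V : Type*} [Fintype V]

/-! ### Layer cake -/

open Classical in
/-- the image of `T` under `E` -/
noncomputable def relS (E : V → V → Prop) (T : Finset V) : Finset V :=
  univ.filter fun z => ∃ z' ∈ T, E z' z

theorem mem_relS {E : V → V → Prop} {T : Finset V} {z : V} :
    z ∈ relS E T ↔ ∃ z' ∈ T, E z' z := by
  classical
  simp [relS]

open Classical in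
theorem layer (w : V → ℝ) (hw : ∀ v, 0 ≤ w v) (E : V → V → Prop) :
    ∀ (k : ℕ) (T₀ : Finset V), T₀.card = k → ∀ (f g : V → ℝ), (∀ z ∈ T₀, 0 ≤ f z) →
      (∀ z, 0 ≤ g z) → (∀ z' ∈ T₀, ∀ z, E z' z → f z' ≤ g z) →
      (∀ T ⊆ T₀, W w T ≤ W w (relS E T)) →
      ∑ z ∈ T₀, w z * f z ≤ ∑ z, w z * g z := by
  intro k
  induction k with
  | zero =>
    intro T₀ hT f g hf hg hE hH
    rw [Finset.card_eq_zero] at hT
    subst hT
    simp only [sum_empty]
    exact sum_nonneg fun z _ => mul_nonneg (hw z) (hg z)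
  | succ k ih =>
    intro T₀ hT f g hf hg hE hH
    have hne : T₀.Nonempty := by
      rw [← Finset.card_pos]; omega
    obtain ⟨z₀, hz₀, hmin⟩ := Finset.exists_min_image T₀ f hne
    set c := f z₀ with hc
    have hc0 : 0 ≤ c := hf z₀ hz₀
    set R := relS E T₀ with hR
    have hcard : (T₀.erase z₀).card = k := by
      rw [Finset.card_erase_of_mem hz₀, hT]; omega
    have h1 := ih (T₀.erase z₀) hcard (fun z => f z - c) (fun z => g z - if z ∈ R then c else 0)
      (fun z hz => sub_nonneg.2 (hmin z (mem_of_mem_erase hz)))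
      (fun z => by
        by_cases hz : z ∈ R
        · simp only [hz, if_true]
          obtain ⟨z', hz', hE'⟩ := mem_relS.1 hz
          exact sub_nonneg.2 ((hmin z' hz').trans (hE z' hz' z hE'))
        · simp only [hz, if_false, sub_zero]
          exact hg z)
      (fun z' hz' z hEz => by
        have hz : z ∈ R := mem_relS.2 ⟨z', mem_of_mem_erase hz', hEz⟩
        simp only [hz, if_true]
        exact sub_le_sub_right (hE z' (mem_of_mem_erase hz') z hEz) c)
      (fun T hTs => hH T (hTs.trans (erase_subset _ _)))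
    have h2 : ∑ z ∈ T₀, w z * f z = c * W w T₀ + ∑ z ∈ T₀.erase z₀, w z * (f z - c) := by
      have h3 : ∑ z ∈ T₀.erase z₀, w z * (f z - c) = ∑ z ∈ T₀, w z * (f z - c) := by
        rw [← Finset.add_sum_erase T₀ (fun z => w z * (f z - c)) hz₀]
        simp [hc]
      rw [h3]
      unfold W
      rw [mul_sum, ← sum_add_distrib]
      exact sum_congr rfl fun z _ => by ring
    have h4 : ∑ z, w z * g z = c * W w R + ∑ z, w z * (g z - if z ∈ R then c else 0) := by
      have h5 : W w R = ∑ z, if z ∈ R then w z else 0 := by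
        unfold W
        rw [← Finset.sum_filter]
        congr 1
        ext z
        simp
      rw [h5, mul_sum, ← sum_add_distrib]
      refine sum_congr rfl fun z _ => ?_
      by_cases hz : z ∈ R
      · simp only [hz, if_true]; ring
      · simp only [hz, if_false]; ring
    rw [h2, h4]
    have h6 := mul_le_mul_of_nonneg_left (hH T₀ (Subset.refl _)) hc0
    linarith

/-! ### The function `m` -/

variable [DecidableEq V]

/-- `max_{T ⊆ P} (w(T) - w((N[T] \ β) \ S))` -/
noncomputable def mm (D : OGraph V) (w : V → ℝ) (P β S : Finset V) : ℝ :=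
  P.powerset.sup' ⟨∅, empty_mem_powerset P⟩ fun T => W w T - W w ((cl D T \ β) \ S)

variable {D : OGraph V} {w : V → ℝ}

theorem le_mm {P β S T : Finset V} (h : T ⊆ P) :
    W w T - W w ((cl D T \ β) \ S) ≤ mm D w P β S :=
  Finset.le_sup' (fun T => W w T - W w ((cl D T \ β) \ S)) (mem_powerset.2 h)

theorem ex_mm (P β S : Finset V) :
    ∃ T ⊆ P, mm D w P β S = W w T - W w ((cl D T \ β) \ S) := by
  obtain ⟨T, hT, h⟩ := Finset.exists_mem_eq_sup' (s := P.powerset) ⟨∅, empty_mem_powerset P⟩
    fun T => W w T - W w ((cl D T \ β) \ S)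
  exact ⟨T, mem_powerset.1 hT, h⟩

theorem mm_mono (hw : ∀ v, 0 ≤ w v) {P β S S' : Finset V} (h : S ⊆ S') :
    mm D w P β S ≤ mm D w P β S' := by
  obtain ⟨T, hT, e⟩ := ex_mm (D := D) (w := w) P β S
  rw [e]
  refine le_trans ?_ (le_mm hT)
  have := W_mono hw (sdiff_subset_sdiff (Subset.refl (cl D T \ β)) h)
  linarith

theorem mm_insert (hw : ∀ v, 0 ≤ w v) (P β S : Finset V) (u : V) :
    mm D w P β (insert u S) ≤ mm D w P β S + w u := by
  obtain ⟨T, hT, e⟩ := ex_mm (D := D) (w := w) P β (insert u S)
  rw [e]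
  have h1 := le_mm (D := D) (w := w) (β := β) (S := S) hT
  have h2 : W w ((cl D T \ β) \ S) ≤ W w ((cl D T \ β) \ insert u S) + w u := by
    have h3 : (cl D T \ β) \ S ⊆ ((cl D T \ β) \ insert u S) ∪ {u} := by
      intro v hv
      simp only [mem_sdiff, mem_insert, mem_union, mem_singleton] at hv ⊢
      tauto
    refine (W_mono hw h3).trans ?_
    unfold W
    refine (Finset.sum_union_inter (s₁ := (cl D T \ β) \ insert u S) (s₂ := {u}) (f := w)).le.trans' ?_ |>.trans ?_
    · exact le_add_of_nonneg_right (sum_nonneg fun v _ => hw v)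
    · simp
  linarith

theorem mm_insert' (P β S : Finset V) {u : V} (hu : u ∉ cl D P \ β) :
    mm D w P β (insert u S) ≤ mm D w P β S := by
  obtain ⟨T, hT, e⟩ := ex_mm (D := D) (w := w) P β (insert u S)
  rw [e]
  have h1 := le_mm (D := D) (w := w) (β := β) (S := S) hT
  have h2 : (cl D T \ β) \ insert u S = (cl D T \ β) \ S := by
    ext v
    simp only [mem_sdiff, mem_insert, mem_cl] at hu ⊢
    constructor
    · tauto
    · rintro ⟨⟨a, b⟩, c⟩
      refine ⟨⟨a, b⟩, ?_⟩
      rintro (rfl | h)
      · refine hu ⟨?_, b⟩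
        rcases a with a | ⟨y, hy, hyv⟩
        · exact Or.inl (hT a)
        · exact Or.inr ⟨y, hT hy, hyv⟩
      · exact c h
  rw [h2]
  exact h1

theorem mm_le (hw : ∀ v, 0 ≤ w v) (P β S : Finset V) : mm D w P β S ≤ W w P := by
  obtain ⟨T, hT, e⟩ := ex_mm (D := D) (w := w) P β S
  rw [e]
  have := W_mono hw hT
  have := W_nonneg hw ((cl D T \ β) \ S)
  linarith

theorem le_mm_univ (P β : Finset V) : W w P ≤ mm D w P β univ := by
  have h := le_mm (D := D) (w := w) (β := β) (S := univ) (Subset.refl P)
  have h1 : (cl D P \ β) \ (univ : Finset V) = ∅ := by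
    ext v; simp
  rw [h1] at h
  simpa [W] using h

theorem mm_nonneg (P β S : Finset V) : 0 ≤ mm D w P β S := by
  have h := le_mm (D := D) (w := w) (β := β) (S := S) (empty_subset P)
  have h1 : (cl D (∅ : Finset V) \ β) \ S = ∅ := by
    ext v; simp [mem_cl]
  rw [h1] at h
  simpa [W] using h

theorem mm_empty {P β : Finset V} (h : ∀ T ⊆ P, W w T ≤ W w (cl D T \ β)) :
    mm D w P β ∅ ≤ 0 := by
  obtain ⟨T, hT, e⟩ := ex_mm (D := D) (w := w) P β ∅
  rw [e, sdiff_empty]
  linarith [h T hT]

theorem W_ind (S : Finset V) : W w S = ∑ v, w v * (if v ∈ S then (1 : ℝ) else 0) := by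
  unfold W
  simp

theorem cl_mono {S T : Finset V} (h : S ⊆ T) : cl D S ⊆ cl D T := by
  intro v hv
  rw [mem_cl] at hv ⊢
  rcases hv with a | ⟨y, hy, hyv⟩
  · exact Or.inl (h a)
  · exact Or.inr ⟨y, h hy, hyv⟩

theorem mem_cl_union {S T : Finset V} {v : V} (h : v ∈ cl D (S ∪ T)) :
    v ∈ cl D S ∨ v ∈ cl D T := by
  rw [mem_cl] at h
  rcases h with a | ⟨y, hy, hyv⟩
  · rcases mem_union.1 a with b | b
    · exact Or.inl (mem_cl.2 (Or.inl b))
    · exact Or.inr (mem_cl.2 (Or.inl b))
  · rcases mem_union.1 hy with b | b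
    · exact Or.inl (mem_cl.2 (Or.inr ⟨y, b, hyv⟩))
    · exact Or.inr (mem_cl.2 (Or.inr ⟨y, b, hyv⟩))

/-- (M) -/
theorem mm_M (hw : ∀ v, 0 ≤ w v) {P β G B S : Finset V} {u : V} (hPG : P \ B ⊆ G)
    (hGB : Disjoint G B) (hβ : β ⊆ cl D B) (hu : u ∉ cl D B) (huS : u ∉ S) :
    mm D w P β (insert u S) + mm D w G (cl D B) S ≤
      mm D w P β S + mm D w G (cl D B) (insert u S) := by
  obtain ⟨T, hT, e⟩ := ex_mm (D := D) (w := w) P β (insert u S)
  obtain ⟨T', hT', e'⟩ := ex_mm (D := D) (w := w) G (cl D B) S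
  have h1 := le_mm (D := D) (w := w) (β := β) (S := S) (P := P) (T := (T ∩ B) ∪ (T ∩ T'))
    (union_subset (inter_subset_left.trans hT) (inter_subset_left.trans hT))
  have h2 := le_mm (D := D) (w := w) (β := cl D B) (S := insert u S) (P := G) (T := T' ∪ (T \ B))
    (union_subset hT' ((sdiff_subset_sdiff hT (Subset.refl B)).trans hPG))
  rw [e, e']
  refine le_trans ?_ (add_le_add h1 h2)
  have k1 : W w ((T ∩ B) ∪ (T ∩ T')) + W w (T' ∪ (T \ B)) = W w T + W w T' := by
    rw [W_ind, W_ind, W_ind, W_ind, ← sum_add_distrib, ← sum_add_distrib]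
    refine sum_congr rfl fun v _ => ?_
    rw [← mul_add, ← mul_add]
    congr 1
    have hd : v ∈ T' → v ∉ B := fun h h' => (disjoint_left.1 hGB) (hT' h) h'
    simp only [mem_union, mem_inter, mem_sdiff]
    by_cases a : v ∈ T <;> by_cases b : v ∈ B <;> by_cases c : v ∈ T' <;>
      simp_all
  have k2 : W w ((cl D ((T ∩ B) ∪ (T ∩ T')) \ β) \ S) +
      W w ((cl D (T' ∪ (T \ B)) \ cl D B) \ insert u S) ≤
      W w ((cl D T \ β) \ insert u S) + W w ((cl D T' \ cl D B) \ S) := by
    rw [W_ind, W_ind, W_ind, W_ind, ← sum_add_distrib, ← sum_add_distrib]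
    refine sum_le_sum fun v _ => ?_
    rw [← mul_add, ← mul_add]
    refine mul_le_mul_of_nonneg_left ?_ (hw v)
    have f1 : v ∈ cl D ((T ∩ B) ∪ (T ∩ T')) → v ∈ cl D T := fun h =>
      cl_mono (union_subset inter_subset_left inter_subset_left) h
    have f2 : v ∈ cl D ((T ∩ B) ∪ (T ∩ T')) → v ∉ cl D B → v ∈ cl D T' := fun h h' => by
      rcases mem_cl_union h with a | a
      · exact absurd (cl_mono inter_subset_right a) h'
      · exact cl_mono inter_subset_right a
    have f3 : v ∈ cl D (T' ∪ (T \ B)) → v ∈ cl D T' ∨ v ∈ cl D T := fun h => by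
      rcases mem_cl_union h with a | a
      · exact Or.inl a
      · exact Or.inr (cl_mono sdiff_subset a)
    have f4 : v ∉ cl D B → v ∉ β := fun h h' => h (hβ h')
    by_cases hvu : v = u
    · subst hvu
      have g1 := f4 hu
      simp only [mem_sdiff, mem_insert, huS, hu, g1, true_or, or_true, not_true, and_false,
        not_false_iff, and_true, or_false, if_false, add_zero, zero_add]
      by_cases a : v ∈ cl D ((T ∩ B) ∪ (T ∩ T'))
      · simp [a, f2 a hu]
      · simp only [a, if_false]
        split_ifs <;> norm_num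
    · by_cases hvS : v ∈ S
      · simp [hvS]
      · simp only [mem_sdiff, mem_insert, hvu, hvS, or_self, not_false_iff, and_true]
        by_cases hB : v ∈ cl D B
        · simp only [hB, not_true, and_false, if_false, add_zero]
          by_cases a : v ∈ cl D ((T ∩ B) ∪ (T ∩ T'))
          · simp [a, f1 a]
          · simp only [a, false_and, if_false]
            split_ifs <;> norm_num
        · have g1 := f4 hB
          simp only [hB, g1, not_false_iff, and_true]
          by_cases a : v ∈ cl D ((T ∩ B) ∪ (T ∩ T'))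
          · have b1 := f1 a
            have b2 := f2 a hB
            simp only [a, b1, b2, if_true]
            split_ifs <;> norm_num
          · simp only [a, if_false, zero_add]
            by_cases b : v ∈ cl D (T' ∪ (T \ B))
            · rcases f3 b with d | d
              · simp only [b, d, if_true]
                split_ifs <;> norm_num
              · simp only [b, d, if_true]
                split_ifs <;> norm_num
            · simp only [b, if_false]
              split_ifs <;> norm_num
  linarith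


open Classical in
/-- column erosion: `x ∈ U z'` for all `z' ∈ N⁻[z]`. -/
noncomputable def AU (D : OGraph V) (U : V → Finset V) (z : V) : Finset V :=
  univ.filter fun x => ∀ z', (z = z' ∨ D.arc z' z) → x ∈ U z'

theorem mem_AU {U : V → Finset V} {z x : V} :
    x ∈ AU D U z ↔ ∀ z', (z = z' ∨ D.arc z' z) → x ∈ U z' := by
  classical
  simp [AU]

open Classical in
/-- (a) -/
theorem row_hall (hw : ∀ v, 0 ≤ w v) (B U : V → Finset V)
    (hR : ∀ a, ∀ T ⊆ U a \ B a, W w T ≤ W w (cl D T \ cl D (B a))) (z : V) (S : Finset V) :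
    (∀ s ∈ S, z = s ∨ D.arc s z) → ∀ T ⊆ AU D U z,
      W w (T.filter fun v => ∃ s ∈ S, v ∉ B s) ≤
        W w ((cl D T).filter fun v => ∃ s ∈ S, v ∉ cl D (B s)) := by
  induction S using Finset.induction_on with
  | empty =>
    intro _ T _
    simp [W]
  | insert s₀ S hs₀ ih =>
    intro hS T hT
    have h1 := ih (fun s hs => hS s (mem_insert_of_mem hs)) (T ∩ B s₀)
      (inter_subset_left.trans hT)
    have h2 := hR s₀ (T \ B s₀) (by
      intro v hv
      rw [mem_sdiff] at hv ⊢
      exact ⟨mem_AU.1 (hT hv.1) s₀ (hS s₀ (mem_insert_self _ _)), hv.2⟩)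
    have e1 : (T.filter fun v => ∃ s ∈ insert s₀ S, v ∉ B s) =
        ((T ∩ B s₀).filter fun v => ∃ s ∈ S, v ∉ B s) ∪ (T \ B s₀) := by
      ext v
      simp only [mem_filter, mem_insert, mem_union, mem_inter, mem_sdiff, exists_eq_or_imp]
      by_cases h0 : v ∈ B s₀ <;> by_cases h00 : v ∈ T <;> simp [h0, h00]
    have d1 : Disjoint ((T ∩ B s₀).filter fun v => ∃ s ∈ S, v ∉ B s) (T \ B s₀) := by
      rw [disjoint_left]
      intro v h h'
      exact (mem_sdiff.1 h').2 (mem_inter.1 (mem_filter.1 h).1).2
    have d2 : Disjoint ((cl D (T ∩ B s₀)).filter fun v => ∃ s ∈ S, v ∉ cl D (B s))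
        (cl D (T \ B s₀) \ cl D (B s₀)) := by
      rw [disjoint_left]
      intro v h h'
      exact (mem_sdiff.1 h').2 (cl_mono inter_subset_right (mem_filter.1 h).1)
    rw [e1, W_union d1]
    refine (add_le_add h1 h2).trans ?_
    rw [← W_union d2]
    refine W_mono hw ?_
    intro v hv
    rcases mem_union.1 hv with h | h
    · obtain ⟨h3, s, hs, h4⟩ := mem_filter.1 h
      exact mem_filter.2 ⟨cl_mono inter_subset_left h3, s, mem_insert_of_mem hs, h4⟩
    · obtain ⟨h3, h4⟩ := mem_sdiff.1 h
      exact mem_filter.2 ⟨cl_mono sdiff_subset h3, s₀, mem_insert_self _ _, h4⟩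

open Classical in
/-- (b) -/
theorem col_hall (hw : ∀ v, 0 ≤ w v) (B U : V → Finset V)
    (hC : ∀ x, ∀ T : Finset V, (∀ z ∈ T, x ∈ U z \ B z) →
      W w T ≤ W w ((cl D T).filter fun z => x ∈ AU D U z)) (u : V) (T : Finset V)
    (hT : ∀ z ∈ T, u ∉ cl D (B z)) (S : Finset V) :
    (∀ x ∈ S, x = u ∨ D.arc x u) →
      W w (T.filter fun z => ∃ x ∈ S, x ∈ U z) ≤
        W w ((cl D T).filter fun z => ∃ x ∈ S, x ∈ AU D U z) := by
  induction S using Finset.induction_on with
  | empty =>
    intro _
    simp [W]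
  | insert x₀ S hx₀ ih =>
    intro hS
    have h1 := ih fun x hx => hS x (mem_insert_of_mem hx)
    set T₁ := T.filter fun z => x₀ ∈ U z ∧ ∀ x ∈ S, x ∉ U z with hT₁
    have hT₁s : T₁ ⊆ T := filter_subset _ _
    have h2 := hC x₀ T₁ (fun z hz => by
      obtain ⟨h3, h4, -⟩ := mem_filter.1 hz
      refine mem_sdiff.2 ⟨h4, fun h5 => hT z h3 ?_⟩
      rw [mem_cl]
      rcases hS x₀ (mem_insert_self _ _) with rfl | h6
      · exact Or.inl h5
      · exact Or.inr ⟨x₀, h5, h6⟩)
    have e1 : (T.filter fun z => ∃ x ∈ insert x₀ S, x ∈ U z) =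
        (T.filter fun z => ∃ x ∈ S, x ∈ U z) ∪ T₁ := by
      ext z
      simp only [mem_filter, mem_insert, mem_union, exists_eq_or_imp, hT₁]
      constructor
      · rintro ⟨h3, h4⟩
        by_cases h5 : ∃ x ∈ S, x ∈ U z
        · exact Or.inl ⟨h3, h5⟩
        · rcases h4 with h4 | h4
          · exact Or.inr ⟨h3, h4, fun x hx hxz => h5 ⟨x, hx, hxz⟩⟩
          · exact absurd h4 h5
      · rintro (⟨h3, h4⟩ | ⟨h3, h4, -⟩)
        · exact ⟨h3, Or.inr h4⟩
        · exact ⟨h3, Or.inl h4⟩
    have d1 : Disjoint (T.filter fun z => ∃ x ∈ S, x ∈ U z) T₁ := by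
      rw [disjoint_left]
      intro z h h'
      obtain ⟨-, x, hx, hxz⟩ := mem_filter.1 h
      exact (mem_filter.1 h').2.2 x hx hxz
    have d2 : Disjoint ((cl D T).filter fun z => ∃ x ∈ S, x ∈ AU D U z)
        ((cl D T₁).filter fun z => x₀ ∈ AU D U z) := by
      rw [disjoint_left]
      intro z h h'
      obtain ⟨-, x, hx, hxz⟩ := mem_filter.1 h
      obtain ⟨h3, -⟩ := mem_filter.1 h'
      rw [mem_cl] at h3
      rw [mem_AU] at hxz
      rcases h3 with h3 | ⟨y, hy, hyz⟩
      · exact (mem_filter.1 h3).2.2 x hx (hxz z (Or.inl rfl))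
      · exact (mem_filter.1 hy).2.2 x hx (hxz y (Or.inr hyz))
    rw [e1, W_union d1]
    refine (add_le_add h1 h2).trans ?_
    rw [← W_union d2]
    refine W_mono hw ?_
    intro z hz
    rcases mem_union.1 hz with h | h
    · obtain ⟨h3, x, hx, h4⟩ := mem_filter.1 h
      exact mem_filter.2 ⟨h3, x, mem_insert_of_mem hx, h4⟩
    · obtain ⟨h3, h4⟩ := mem_filter.1 h
      exact mem_filter.2 ⟨cl_mono hT₁s h3, x₀, mem_insert_self _ _, h4⟩

open Classical in
/-- (★) -/
theorem star (hw : ∀ v, 0 ≤ w v) (B U : V → Finset V)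
    (hR : ∀ a, ∀ T ⊆ U a \ B a, W w T ≤ W w (cl D T \ cl D (B a)))
    (hC : ∀ x, ∀ T : Finset V, (∀ z ∈ T, x ∈ U z \ B z) →
      W w T ≤ W w ((cl D T).filter fun z => x ∈ AU D U z)) :
    ∑ z, w z * W w ((AU D U z).filter fun x => ∃ z', (z = z' ∨ D.arc z' z) ∧ x ∉ B z') +
      ∑ z, w z * W w (cl D (U z) \ cl D (B z)) ≤
    ∑ z, w z * W w ((cl D (AU D U z)).filter fun u =>
        ∃ z', (z = z' ∨ D.arc z' z) ∧ u ∉ cl D (B z')) +
      ∑ z, w z * W w (U z \ B z) := by
  set Nm : V → Finset V := fun z => univ.filter fun s => z = s ∨ D.arc s z with hNm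
  have mNm : ∀ {z s : V}, s ∈ Nm z ↔ (z = s ∨ D.arc s z) := by
    intro z s; simp [hNm]
  set P : V → Finset V := fun z =>
    (AU D U z).filter fun x => ∃ z', (z = z' ∨ D.arc z' z) ∧ x ∉ B z' with hP
  set K : V → Finset V := fun z => (cl D (AU D U z)).filter fun u =>
    ∃ z', (z = z' ∨ D.arc z' z) ∧ u ∉ cl D (B z') with hK
  set β : V → Finset V := fun z =>
    univ.filter fun u => ∀ z', (z = z' ∨ D.arc z' z) → u ∈ cl D (B z') with hβ
  set G : V → Finset V := fun z => U z \ B z with hG
  have mβ : ∀ {z u : V}, u ∈ β z ↔ ∀ z', (z = z' ∨ D.arc z' z) → u ∈ cl D (B z') := by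
    intro z u; simp [hβ]
  have hPs : ∀ z, P z ⊆ AU D U z := fun z => filter_subset _ _
  have hK' : ∀ z, K z = cl D (AU D U z) \ β z := by
    intro z
    ext u
    simp only [hK, mem_filter, mem_sdiff, mβ, not_forall, exists_prop]
  have ha : ∀ z, ∀ T ⊆ P z, W w T ≤ W w (cl D T \ β z) := by
    intro z T hT
    have h1 := row_hall hw B U hR z (Nm z) (fun s hs => mNm.1 hs) T (hT.trans (hPs z))
    have e1 : (T.filter fun v => ∃ s ∈ Nm z, v ∉ B s) = T := by
      refine filter_true_of_mem fun v hv => ?_
      obtain ⟨-, s, hs, h2⟩ := mem_filter.1 (hT hv)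
      exact ⟨s, mNm.2 hs, h2⟩
    have e2 : ((cl D T).filter fun v => ∃ s ∈ Nm z, v ∉ cl D (B s)) = cl D T \ β z := by
      ext v
      simp only [mem_filter, mem_sdiff, mβ, mNm, not_forall, exists_prop]
    rw [e1, e2] at h1
    exact h1
  -- the induction over `S`
  have key : ∀ S : Finset V,
      ∑ z, w z * (W w ((cl D (U z) \ cl D (B z)) ∩ S) - mm D w (G z) (cl D (B z)) S +
        mm D w (G z) (cl D (B z)) ∅) ≤
      ∑ z, w z * (W w (K z ∩ S) - mm D w (P z) (β z) S + mm D w (P z) (β z) ∅) := by
    intro S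
    induction S using Finset.induction_on with
    | empty => simp [W]
    | insert u S hu ih =>
      set f : V → ℝ := fun z => w u - (mm D w (G z) (cl D (B z)) (insert u S) -
        mm D w (G z) (cl D (B z)) S) with hf
      set g : V → ℝ := fun z => (if u ∈ K z then w u else 0) -
        (mm D w (P z) (β z) (insert u S) - mm D w (P z) (β z) S) with hg
      set Q : Finset V := univ.filter fun z => u ∈ cl D (U z) \ cl D (B z) with hQ
      have hl := layer w hw (fun z' z => (z = z' ∨ D.arc z' z) ∧ u ∈ K z) Q.card Q rfl f g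
        (fun z _ => by
          have := mm_insert (D := D) hw (G z) (cl D (B z)) S u
          simp only [hf]; linarith)
        (fun z => by
          by_cases hz : u ∈ K z
          · have := mm_insert (D := D) hw (P z) (β z) S u
            simp only [hg, hz, if_true]; linarith
          · have h0 : u ∉ cl D (P z) \ β z := by
              intro h1
              refine hz ?_
              rw [hK' z]
              exact mem_sdiff.2 ⟨cl_mono (hPs z) (mem_sdiff.1 h1).1, (mem_sdiff.1 h1).2⟩
            have := mm_insert' (D := D) (w := w) (P z) (β z) S h0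
            simp only [hg, hz, if_false]; linarith)
        (fun z' hz' z hE => by
          obtain ⟨hz1, hz2⟩ := hE
          have huB : u ∉ cl D (B z') := (mem_sdiff.1 (mem_filter.1 hz').2).2
          have h1 := mm_M (D := D) (w := w) hw (P := P z) (β := β z) (G := G z') (B := B z')
            (S := S) (u := u) (by
              intro v hv
              obtain ⟨h2, h3⟩ := mem_sdiff.1 hv
              exact mem_sdiff.2 ⟨mem_AU.1 (hPs z h2) z' hz1, h3⟩) sdiff_disjoint
            (fun v hv => mβ.1 hv z' hz1) huB hu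
          simp only [hf, hg, hz2, if_true]
          linarith)
        (fun T hT => by
          have h1 := col_hall hw B U hC u T (fun z hz =>
            (mem_sdiff.1 (mem_filter.1 (hT hz)).2).2) (Nm u) (fun x hx => by
              rcases mNm.1 hx with h | h
              · exact Or.inl h.symm
              · exact Or.inr h)
          have e1 : (T.filter fun z => ∃ x ∈ Nm u, x ∈ U z) = T := by
            refine filter_true_of_mem fun z hz => ?_
            have h2 := (mem_sdiff.1 (mem_filter.1 (hT hz)).2).1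
            rw [mem_cl] at h2
            rcases h2 with h2 | ⟨y, hy, hyu⟩
            · exact ⟨u, mNm.2 (Or.inl rfl), h2⟩
            · exact ⟨y, mNm.2 (Or.inr hyu), hy⟩
          rw [e1] at h1
          refine h1.trans (W_mono hw ?_)
          intro z hz
          obtain ⟨h2, x, hx, h3⟩ := mem_filter.1 hz
          have h4 : ∃ z' ∈ T, z = z' ∨ D.arc z' z := by
            rw [mem_cl] at h2
            rcases h2 with h2 | ⟨y, hy, hyz⟩
            · exact ⟨z, h2, Or.inl rfl⟩
            · exact ⟨y, hy, Or.inr hyz⟩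
          obtain ⟨z', hz', h5⟩ := h4
          refine mem_relS.2 ⟨z', hz', h5, ?_⟩
          have h6 : u ∉ cl D (B z') := (mem_sdiff.1 (mem_filter.1 (hT hz')).2).2
          refine mem_filter.2 ⟨?_, z', h5, h6⟩
          rw [mem_cl]
          rcases mNm.1 hx with rfl | h7
          · exact Or.inl h3
          · exact Or.inr ⟨x, h3, h7⟩)
      -- the step
      have hWi : ∀ A : Finset V, W w (A ∩ insert u S) = W w (A ∩ S) + if u ∈ A then w u else 0 := by
        intro A
        by_cases hA : u ∈ A
        · have e1 : A ∩ insert u S = insert u (A ∩ S) := by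
            ext v
            simp only [mem_inter, mem_insert]
            constructor
            · rintro ⟨a, rfl | b⟩
              · exact Or.inl rfl
              · exact Or.inr ⟨a, b⟩
            · rintro (rfl | ⟨a, b⟩)
              · exact ⟨hA, Or.inl rfl⟩
              · exact ⟨a, Or.inr b⟩
          have h2 : u ∉ A ∩ S := fun h => hu (mem_inter.1 h).2
          rw [e1]
          unfold W
          rw [sum_insert h2]
          simp only [hA, if_true]
          ring
        · have e1 : A ∩ insert u S = A ∩ S := by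
            ext v
            simp only [mem_inter, mem_insert]
            constructor
            · rintro ⟨a, rfl | b⟩
              · exact absurd a hA
              · exact ⟨a, b⟩
            · rintro ⟨a, b⟩
              exact ⟨a, Or.inr b⟩
          rw [e1]
          simp [hA]
      have hL : ∑ z, w z * (W w ((cl D (U z) \ cl D (B z)) ∩ insert u S) -
          mm D w (G z) (cl D (B z)) (insert u S) + mm D w (G z) (cl D (B z)) ∅) ≤
          ∑ z, w z * (W w ((cl D (U z) \ cl D (B z)) ∩ S) - mm D w (G z) (cl D (B z)) S +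
            mm D w (G z) (cl D (B z)) ∅) + ∑ z ∈ Q, w z * f z := by
        have h1 : ∑ z ∈ Q, w z * f z = ∑ z, if u ∈ cl D (U z) \ cl D (B z) then w z * f z else 0 :=
          sum_filter _ _
        rw [h1, ← sum_add_distrib]
        refine sum_le_sum fun z _ => ?_
        rw [hWi]
        by_cases hz : u ∈ cl D (U z) \ cl D (B z)
        · simp only [hz, if_true, hf]
          apply le_of_eq
          ring
        · simp only [hz, if_false, add_zero]
          have := mm_mono (D := D) hw (P := G z) (β := cl D (B z)) (subset_insert u S)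
          refine mul_le_mul_of_nonneg_left ?_ (hw z)
          linarith
      have hRr : ∑ z, w z * (W w (K z ∩ insert u S) - mm D w (P z) (β z) (insert u S) +
          mm D w (P z) (β z) ∅) = ∑ z, w z * (W w (K z ∩ S) - mm D w (P z) (β z) S +
            mm D w (P z) (β z) ∅) + ∑ z, w z * g z := by
        rw [← sum_add_distrib]
        refine sum_congr rfl fun z _ => ?_
        rw [hWi]
        simp only [hg]
        ring
      rw [hRr]
      exact hL.trans (add_le_add ih hl)
  have hfin := key univ
  simp only [inter_univ] at hfin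
  have h1 : ∑ z, w z * (W w (cl D (U z) \ cl D (B z)) - W w (G z)) ≤
      ∑ z, w z * (W w (cl D (U z) \ cl D (B z)) - mm D w (G z) (cl D (B z)) univ +
        mm D w (G z) (cl D (B z)) ∅) := by
    refine sum_le_sum fun z _ => mul_le_mul_of_nonneg_left ?_ (hw z)
    have := mm_le (D := D) hw (G z) (cl D (B z)) univ
    have := mm_nonneg (D := D) (w := w) (G z) (cl D (B z)) ∅
    linarith
  have h2 : ∑ z, w z * (W w (K z) - mm D w (P z) (β z) univ + mm D w (P z) (β z) ∅) ≤
      ∑ z, w z * (W w (K z) - W w (P z)) := by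
    refine sum_le_sum fun z _ => mul_le_mul_of_nonneg_left ?_ (hw z)
    have := le_mm_univ (D := D) (w := w) (P z) (β z)
    have := mm_empty (D := D) (w := w) (ha z)
    linarith
  have h3 := h1.trans (hfin.trans h2)
  simp only [mul_sub, sum_sub_distrib] at h3
  linarith

end Vale.Agent.P038.H275
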